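import Vale.Agent.P262.H431.Per1

/-!
# P262, line lemma (P4): lattice sums along a line bound the Gaussian integral along the line
-/

set_option linter.all false

open MeasureTheory ProbabilityTheory Set
open scoped ENNReal RealInnerProductSpace

namespace Vale.Agent.P262.H816

open Vale.Agent.P262.H395
open Vale.Agent.P262.H431

/-- **(L1)** lattice sums inside an interval bound the integral over the interval. -/
theorem line_int {τ : ℝ → ℝ≥0∞} (hτ : Measurable τ) {a b h : ℝ} (hh : 0 < h) {G : ℝ≥0∞}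
    (H : ∀ (t : ℝ) (J : ℕ), a < t → t + J * h < b →
      ∑ j ∈ Finset.range (J + 1), τ (t + j * h) ≤ G) :
    ∫⁻ t in Ioo a b, τ t ≤ ENNReal.ofReal h * G := by
  classical
  rcases le_or_gt b a with hab | hab
  · rw [Ioo_eq_empty (not_lt.mpr hab)]
    simp
  set f : ℝ → ℝ≥0∞ := (Ioo a b).indicator τ with hf
  have hfm : Measurable f := hτ.indicator measurableSet_Ioo
  obtain ⟨N, hN⟩ := exists_nat_gt ((b - a) / h)
  have hNb : b < a + N * h := by
    rw [div_lt_iff₀ hh] at hN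
    linarith
  -- the cover
  have hcov : Ioo a b ⊆ ⋃ n ∈ Finset.range N, Ioc (a + n * h) (a + (n + 1) * h) := by
    intro t ht
    have h1 : 0 < (t - a) / h := div_pos (by linarith [ht.1]) hh
    set n := ⌈(t - a) / h⌉₊ - 1 with hn
    have h2 : 1 ≤ ⌈(t - a) / h⌉₊ := Nat.one_le_iff_ne_zero.mpr (by
      intro h0
      rw [Nat.ceil_eq_zero] at h0
      linarith)
    have h3 : n + 1 = ⌈(t - a) / h⌉₊ := Nat.sub_add_cancel h2
    have h4 : (n : ℝ) < (t - a) / h := by
      have : n < ⌈(t - a) / h⌉₊ := by omega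
      exact Nat.lt_ceil.mp this
    have h5 : (t - a) / h ≤ (n : ℝ) + 1 := by
      have := Nat.le_ceil ((t - a) / h)
      rw [← h3] at this
      push_cast at this
      exact this
    have h6 : n < N := by
      have h7 : (t - a) / h < N := by
        refine lt_trans ?_ hN
        exact div_lt_div_of_pos_right (by linarith [ht.2]) hh
      have h8 : (n : ℝ) < N := h4.trans h7
      exact_mod_cast h8
    rw [mem_iUnion₂]
    refine ⟨n, Finset.mem_range.mpr h6, ?_, ?_⟩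
    · rw [lt_div_iff₀ hh] at h4
      linarith
    · rw [div_le_iff₀ hh] at h5
      linarith
  have h1 : ∫⁻ t in Ioo a b, τ t = ∫⁻ t, f t := by
    rw [hf, lintegral_indicator measurableSet_Ioo]
  have h2 : ∫⁻ t, f t ≤ ∑ n ∈ Finset.range N, ∫⁻ t in Ioc (a + n * h) (a + (n + 1) * h), f t := by
    have hsupp : ∀ t, f t ≤ ∑ n ∈ Finset.range N,
        (Ioc (a + n * h) (a + (n + 1) * h)).indicator f t := by
      intro t
      by_cases ht : t ∈ Ioo a b
      · have h3 := hcov ht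
        rw [mem_iUnion₂] at h3
        obtain ⟨n, hn, h4⟩ := h3
        have h5 : (Ioc (a + (n : ℝ) * h) (a + ((n : ℝ) + 1) * h)).indicator f t
            ≤ ∑ n ∈ Finset.range N, (Ioc (a + (n : ℝ) * h) (a + ((n : ℝ) + 1) * h)).indicator f t :=
          Finset.single_le_sum
            (f := fun n : ℕ => (Ioc (a + (n : ℝ) * h) (a + ((n : ℝ) + 1) * h)).indicator f t)
            (fun _ _ => zero_le) hn
        rw [indicator_of_mem h4] at h5
        exact h5
      · rw [hf, indicator_of_notMem ht]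
        exact zero_le
    calc ∫⁻ t, f t ≤ ∫⁻ t, ∑ n ∈ Finset.range N,
        (Ioc (a + n * h) (a + (n + 1) * h)).indicator f t := lintegral_mono hsupp
      _ = ∑ n ∈ Finset.range N, ∫⁻ t, (Ioc (a + n * h) (a + (n + 1) * h)).indicator f t :=
        lintegral_finsetSum _ (fun n _ => hfm.indicator measurableSet_Ioc)
      _ = _ := by
        refine Finset.sum_congr rfl fun n _ => ?_
        rw [lintegral_indicator measurableSet_Ioc]
  have h3 : ∀ n : ℕ, ∫⁻ t in Ioc (a + n * h) (a + (n + 1) * h), f t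
      = ∫⁻ t in Ioc a (a + h), f (t + n * h) := by
    intro n
    rw [← lintegral_indicator measurableSet_Ioc, ← lintegral_indicator measurableSet_Ioc,
      ← lintegral_add_right_eq_self
        ((Ioc (a + n * h) (a + (n + 1) * h)).indicator f) ((n : ℝ) * h)]
    refine lintegral_congr fun t => ?_
    by_cases ht : t ∈ Ioc a (a + h)
    · rw [indicator_of_mem ht, indicator_of_mem]
      exact ⟨by linarith [ht.1], by linarith [ht.2]⟩
    · rw [indicator_of_notMem ht, indicator_of_notMem]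
      intro hc
      exact ht ⟨by linarith [hc.1], by linarith [hc.2]⟩
  have h4 : ∀ t, ∑ n ∈ Finset.range N, (Ioi a).indicator (fun t => f (t + n * h)) t ≤ G := by
    intro t
    by_cases hta : t ∈ Ioi a
    swap
    · simp only [indicator_of_notMem hta, Finset.sum_const_zero]
      exact zero_le
    simp only [indicator_of_mem hta]
    by_cases htb : t < b
    swap
    · refine le_of_eq_of_le (Finset.sum_eq_zero fun n _ => ?_) zero_le
      rw [hf, indicator_of_notMem]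
      intro hc
      apply htb
      have : (0 : ℝ) ≤ n * h := by positivity
      linarith [hc.2]
    · -- the set of admissible n
      set J := Nat.findGreatest (fun n => t + n * h < b) N with hJ
      have hJ0 : t + (J : ℕ) * h < b := by
        have : (fun n : ℕ => t + n * h < b) J := by
          apply Nat.findGreatest_spec (P := fun n : ℕ => t + n * h < b) (Nat.zero_le N)
          simpa using htb
        exact this
      refine le_trans ?_ (H t J hta hJ0)
      have h5 : ∀ n ∈ Finset.range N, f (t + n * h) ≠ 0 → n ∈ Finset.range (J + 1) := by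
        intro n hn hne
        have h6 : t + n * h ∈ Ioo a b := by
          by_contra hc
          exact hne (by rw [hf, indicator_of_notMem hc])
        have h7 : n ≤ J := Nat.le_findGreatest (Finset.mem_range.mp hn).le h6.2
        exact Finset.mem_range.mpr (by omega)
      calc ∑ n ∈ Finset.range N, f (t + (n : ℝ) * h)
          = ∑ n ∈ (Finset.range N).filter (fun n : ℕ => f (t + (n : ℝ) * h) ≠ 0),
              f (t + (n : ℝ) * h) := (Finset.sum_filter_ne_zero _).symm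
        _ ≤ ∑ n ∈ Finset.range (J + 1), f (t + (n : ℝ) * h) := by
            apply Finset.sum_le_sum_of_subset
            intro n hn
            rw [Finset.mem_filter] at hn
            exact h5 n hn.1 hn.2
        _ ≤ ∑ n ∈ Finset.range (J + 1), τ (t + (n : ℝ) * h) :=
            Finset.sum_le_sum fun n _ => indicator_le_self' (fun _ _ => zero_le) _
  rw [h1]
  refine h2.trans ?_
  simp_rw [h3]
  have hms : ∀ n ∈ Finset.range N, Measurable fun t : ℝ => f (t + (n : ℝ) * h) := fun n _ =>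
    hfm.comp (measurable_id.add_const _)
  rw [← lintegral_finsetSum _ hms]
  have h5 : ∫⁻ t in Ioc a (a + h), ∑ n ∈ Finset.range N, f (t + n * h)
      ≤ ∫⁻ t in Ioc a (a + h), G := by
    apply setLIntegral_mono measurable_const
    intro t ht
    have := h4 t
    simp only [indicator_of_mem (show t ∈ Ioi a from ht.1)] at this
    exact this
  refine h5.trans (le_of_eq ?_)
  rw [setLIntegral_const, Real.volume_Ioc, mul_comm]
  congr 2
  ring

/-- the weight `e^{a t²}` times the Gaussian density is at most its value at `⌊|t|⌋`. -/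
lemma gweight_le {a0 : ℝ} (ha : a0 ≤ 1 / 2) (t : ℝ) :
    gaussianPDF 0 1 t * ENNReal.ofReal (Real.exp (a0 * t ^ 2))
      ≤ ∑' k : ℕ, (Ioo (-((k : ℝ) + 1)) ((k : ℝ) + 1)).indicator
        (fun _ => ENNReal.ofReal (Real.exp (-((1 / 2 - a0) * (k : ℝ) ^ 2)))) t := by
  set k : ℕ := ⌊|t|⌋₊ with hk
  have h1 : (k : ℝ) ≤ |t| := Nat.floor_le (abs_nonneg t)
  have h2 : |t| < (k : ℝ) + 1 := Nat.lt_floor_add_one |t|
  have hmem : t ∈ Ioo (-((k : ℝ) + 1)) ((k : ℝ) + 1) := abs_lt.mp h2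
  refine le_trans ?_ (ENNReal.le_tsum k)
  rw [indicator_of_mem hmem]
  unfold gaussianPDF
  rw [← ENNReal.ofReal_mul (gaussianPDFReal_nonneg 0 1 t)]
  apply ENNReal.ofReal_le_ofReal
  unfold gaussianPDFReal
  have h3 : (√(2 * Real.pi * ((1 : NNReal) : ℝ)))⁻¹ ≤ 1 := by
    apply inv_le_one_of_one_le₀
    rw [Real.one_le_sqrt]
    have := Real.pi_gt_three
    push_cast
    linarith
  have h4 : (0 : ℝ) ≤ (√(2 * Real.pi * ((1 : NNReal) : ℝ)))⁻¹ := by positivity
  have h5 : (k : ℝ) ^ 2 ≤ t ^ 2 := by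
    rw [← sq_abs t]
    exact pow_le_pow_left₀ (Nat.cast_nonneg k) h1 2
  calc (√(2 * Real.pi * ((1 : NNReal) : ℝ)))⁻¹ * Real.exp (-(t - 0) ^ 2 / (2 * ((1 : NNReal) : ℝ)))
        * Real.exp (a0 * t ^ 2)
      = (√(2 * Real.pi * ((1 : NNReal) : ℝ)))⁻¹ * Real.exp (-((1 / 2 - a0) * t ^ 2)) := by
        rw [mul_assoc, ← Real.exp_add]
        congr 2
        push_cast
        ring
    _ ≤ 1 * Real.exp (-((1 / 2 - a0) * t ^ 2)) :=
        mul_le_mul_of_nonneg_right h3 (Real.exp_pos _).le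
    _ ≤ _ := by
        rw [one_mul]
        apply Real.exp_le_exp.mpr
        have : 0 ≤ 1 / 2 - a0 := by linarith
        nlinarith

/-- **(L2)** the Gaussian form. -/
theorem line_gauss {τ : ℝ → ℝ≥0∞} (hτ : Measurable τ) {h : ℝ} (hh : 0 < h) {a0 : ℝ}
    (ha : a0 ≤ 1 / 2) {G : ℕ → ℝ≥0∞}
    (H : ∀ (k : ℕ) (t : ℝ) (J : ℕ), -((k : ℝ) + 1) < t → t + J * h < (k : ℝ) + 1 →
      ∑ j ∈ Finset.range (J + 1), τ (t + j * h) ≤ G k) :
    ∫⁻ t, ENNReal.ofReal (Real.exp (a0 * t ^ 2)) * τ t ∂(gaussianReal 0 1)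
      ≤ ENNReal.ofReal h
        * ∑' k : ℕ, ENNReal.ofReal (Real.exp (-((1 / 2 - a0) * (k : ℝ) ^ 2))) * G k := by
  have hm : Measurable fun t : ℝ => ENNReal.ofReal (Real.exp (a0 * t ^ 2)) * τ t := by
    fun_prop
  rw [gaussianReal_of_var_ne_zero 0 one_ne_zero,
    lintegral_withDensity_eq_lintegral_mul _ (measurable_gaussianPDF 0 1) hm]
  have h1 : ∀ t, (gaussianPDF 0 1 * fun t : ℝ => ENNReal.ofReal (Real.exp (a0 * t ^ 2)) * τ t) t
      ≤ ∑' k : ℕ, ENNReal.ofReal (Real.exp (-((1 / 2 - a0) * (k : ℝ) ^ 2)))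
        * (Ioo (-((k : ℝ) + 1)) ((k : ℝ) + 1)).indicator τ t := by
    intro t
    rw [Pi.mul_apply, ← mul_assoc]
    refine (mul_le_mul_left (gweight_le ha t) (τ t)).trans (le_of_eq ?_)
    rw [← ENNReal.tsum_mul_right]
    refine tsum_congr fun k => ?_
    by_cases ht : t ∈ Ioo (-((k : ℝ) + 1)) ((k : ℝ) + 1)
    · rw [indicator_of_mem ht, indicator_of_mem ht]
    · rw [indicator_of_notMem ht, indicator_of_notMem ht, zero_mul, mul_zero]
  refine (lintegral_mono h1).trans ?_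
  rw [lintegral_tsum (fun k => ((hτ.indicator measurableSet_Ioo).const_mul _).aemeasurable),
    ← ENNReal.tsum_mul_left]
  refine ENNReal.tsum_le_tsum fun k => ?_
  rw [lintegral_const_mul _ (hτ.indicator measurableSet_Ioo),
    lintegral_indicator measurableSet_Ioo]
  calc ENNReal.ofReal (Real.exp (-((1 / 2 - a0) * (k : ℝ) ^ 2)))
        * ∫⁻ t in Ioo (-((k : ℝ) + 1)) ((k : ℝ) + 1), τ t
      ≤ ENNReal.ofReal (Real.exp (-((1 / 2 - a0) * (k : ℝ) ^ 2))) * (ENNReal.ofReal h * G k) :=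
        mul_le_mul_right (line_int hτ hh (H k)) _
    _ = _ := by ring

variable {E : Type*} [NormedAddCommGroup E] [InnerProductSpace ℝ E] [FiniteDimensional ℝ E]
  [MeasurableSpace E] [BorelSpace E]

lemma pt_eq_add {e : E} (he : ‖e‖ = 1) (x : E) (s r : ℝ) :
    pt e x (s + r) = pt e x s + r • e := by
  unfold pt
  rw [add_assoc, ← add_smul]
  congr 2
  ring

lemma fib_tsum {W : Submodule ℝ E} {c : ℕ → ℝ≥0∞} {F : ℕ → E → ℝ≥0∞}
    (hF : ∀ k, Measurable (F k)) (x0 : E) :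
    fib W (fun x => ∑' k : ℕ, c k * F k x) x0 = ∑' k : ℕ, c k * fib W (F k) x0 := by
  unfold fib
  have hm : ∀ k, Measurable fun z => F k (mix W x0 z) := fun k =>
    (hF k).comp (measurable_mix_right W x0)
  rw [lintegral_tsum (fun k => ((hm k).const_mul (c k)).aemeasurable)]
  exact tsum_congr fun k => lintegral_const_mul _ (hm k)

/-- **(L3)** the fibre form. -/
theorem line_fib {e : E} (he : ‖e‖ = 1) {W0 : Submodule ℝ E} (hW : W0 ≤ (ℝ ∙ e)ᗮ)
    {τ w : E → ℝ≥0∞} (hτ : Measurable τ) (hw : Measurable w)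
    (hwe : ∀ (x : E) (t : ℝ), w (x + t • e) = w x) {h : ℝ} (hh : 0 < h) {a0 : ℝ}
    (ha : a0 ≤ 1 / 2) {G : ℕ → E → ℝ≥0∞} (hG : ∀ k, Measurable (G k))
    (hGe : ∀ (k : ℕ) (x : E) (t : ℝ), G k (x + t • e) = G k x)
    (H : ∀ (k : ℕ) (x : E) (J : ℕ), -((k : ℝ) + 1) < ⟪e, x⟫ → ⟪e, x⟫ + J * h < (k : ℝ) + 1 →
      ∑ j ∈ Finset.range (J + 1), τ (x + ((j : ℝ) * h) • e) ≤ G k x) (x0 : E) :
    fib W0 (fun x => ENNReal.ofReal (Real.exp (a0 * ⟪e, x⟫ ^ 2)) * (w x * τ x)) x0
      ≤ ENNReal.ofReal h * ∑' k : ℕ, ENNReal.ofReal (Real.exp (-((1 / 2 - a0) * (k : ℝ) ^ 2)))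
        * fib W0 (fun x => w x * G k x) x0 := by
  have hm : Measurable fun x : E => ENNReal.ofReal (Real.exp (a0 * ⟪e, x⟫ ^ 2)) * (w x * τ x) := by
    fun_prop
  have hptw : ∀ (x : E) (s : ℝ), w (pt e x s) = w x := fun x s => by
    unfold pt; exact hwe x _
  have hptG : ∀ (k : ℕ) (x : E) (s : ℝ), G k (pt e x s) = G k x := fun k x s => by
    unfold pt; exact hGe k x _
  rw [← fib_tower hW hm]
  have h1 : ∀ x, fib (ℝ ∙ e)ᗮ
      (fun x => ENNReal.ofReal (Real.exp (a0 * ⟪e, x⟫ ^ 2)) * (w x * τ x)) x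
      ≤ ∑' k : ℕ, (ENNReal.ofReal h * ENNReal.ofReal (Real.exp (-((1 / 2 - a0) * (k : ℝ) ^ 2))))
        * (w x * G k x) := by
    intro x
    rw [fib_line he hm]
    have e1 : ∀ t, ENNReal.ofReal (Real.exp (a0 * ⟪e, pt e x t⟫ ^ 2))
        * (w (pt e x t) * τ (pt e x t))
        = w x * (ENNReal.ofReal (Real.exp (a0 * t ^ 2)) * τ (pt e x t)) := by
      intro t
      rw [inner_pt he, hptw]
      ring
    simp_rw [e1]
    have hτp : Measurable fun t : ℝ => τ (pt e x t) :=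
      hτ.comp (continuous_pt_right e x).measurable
    have hep : Measurable fun t : ℝ => ENNReal.ofReal (Real.exp (a0 * t ^ 2)) := by fun_prop
    have hmp : Measurable fun t : ℝ => ENNReal.ofReal (Real.exp (a0 * t ^ 2)) * τ (pt e x t) :=
      hep.mul hτp
    rw [lintegral_const_mul _ hmp]
    have h2 := line_gauss hτp hh ha (G := fun k => G k x) (by
      intro k t J h3 h4
      have h5 := H k (pt e x t) J (by rw [inner_pt he]; exact h3) (by rw [inner_pt he]; exact h4)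
      rw [hptG] at h5
      refine le_trans (le_of_eq (Finset.sum_congr rfl fun j _ => ?_)) h5
      rw [pt_eq_add he])
    refine (mul_le_mul_right h2 (w x)).trans (le_of_eq ?_)
    rw [← ENNReal.tsum_mul_left, ← ENNReal.tsum_mul_left]
    refine tsum_congr fun k => ?_
    ring
  refine (fib_mono h1 x0).trans (le_of_eq ?_)
  rw [fib_tsum (c := fun k : ℕ => ENNReal.ofReal h
    * ENNReal.ofReal (Real.exp (-((1 / 2 - a0) * (k : ℝ) ^ 2)))) (F := fun k x => w x * G k x)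
    (fun k => hw.mul (hG k)), ← ENNReal.tsum_mul_left]
  refine tsum_congr fun k => ?_
  rw [mul_assoc]

/-- the numerical sum of (L4) -/
lemma num_sum {a0 c : ℝ} (h0 : a0 ≤ 1 / 16) (hc0 : 0 ≤ c) (hc : c ≤ 4 / 15) :
    ∑' k : ℕ, ENNReal.ofReal (Real.exp (-((1 / 2 - a0) * (k : ℝ) ^ 2)))
      * ENNReal.ofReal (Real.exp (c * ((k : ℝ) + 1) ^ 2)) ≤ ENNReal.ofReal 20 := by
  have h7 : Real.exp (11 / 6) ≤ 7 := by
    have h1 : Real.exp (11 / 6) ^ 6 ≤ 7 ^ 6 := by
      rw [← Real.exp_nat_mul]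
      have e1 : ((6 : ℕ) : ℝ) * (11 / 6) = ((11 : ℕ) : ℝ) * 1 := by norm_num
      rw [e1, Real.exp_nat_mul]
      calc Real.exp 1 ^ 11 ≤ 2.72 ^ 11 :=
            pow_le_pow_left₀ (Real.exp_pos _).le (by linarith [Real.exp_one_lt_d9]) 11
        _ ≤ 7 ^ 6 := by norm_num
    exact le_of_pow_le_pow_left₀ (by norm_num) (by norm_num) h1
  have h58 : Real.exp (-(1 / 2)) ≤ 5 / 8 := by
    have h1 : Real.exp (-(1 / 2)) ^ 2 ≤ (5 / 8) ^ 2 := by
      rw [← Real.exp_nat_mul]
      have e1 : ((2 : ℕ) : ℝ) * (-(1 / 2)) = -1 := by norm_num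
      rw [e1, Real.exp_neg]
      have h2 : (2.7 : ℝ) ≤ Real.exp 1 := by linarith [Real.exp_one_gt_d9]
      calc (Real.exp 1)⁻¹ ≤ (2.7 : ℝ)⁻¹ := inv_anti₀ (by norm_num) h2
        _ ≤ (5 / 8) ^ 2 := by norm_num
    exact le_of_pow_le_pow_left₀ (by norm_num) (by norm_num) h1
  have hterm : ∀ k : ℕ, ENNReal.ofReal (Real.exp (-((1 / 2 - a0) * (k : ℝ) ^ 2)))
      * ENNReal.ofReal (Real.exp (c * ((k : ℝ) + 1) ^ 2))
      ≤ ENNReal.ofReal 7 * ENNReal.ofReal (5 / 8) ^ k := by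
    intro k
    rw [← ENNReal.ofReal_mul (Real.exp_pos _).le, ← Real.exp_add,
      ← ENNReal.ofReal_pow (by norm_num), ← ENNReal.ofReal_mul (by norm_num)]
    apply ENNReal.ofReal_le_ofReal
    have hk : (0 : ℝ) ≤ k := Nat.cast_nonneg k
    have h1 : -((1 / 2 - a0) * (k : ℝ) ^ 2) + c * ((k : ℝ) + 1) ^ 2
        ≤ 11 / 6 + (k : ℝ) * (-(1 / 2)) := by
      have h2 : a0 * (k : ℝ) ^ 2 ≤ 1 / 16 * (k : ℝ) ^ 2 :=
        mul_le_mul_of_nonneg_right h0 (sq_nonneg _)
      have h3 : c * ((k : ℝ) + 1) ^ 2 ≤ 4 / 15 * ((k : ℝ) + 1) ^ 2 :=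
        mul_le_mul_of_nonneg_right hc (sq_nonneg _)
      nlinarith [sq_nonneg ((k : ℝ) - 3)]
    calc Real.exp (-((1 / 2 - a0) * (k : ℝ) ^ 2) + c * ((k : ℝ) + 1) ^ 2)
        ≤ Real.exp (11 / 6 + (k : ℝ) * (-(1 / 2))) := Real.exp_le_exp.mpr h1
      _ = Real.exp (11 / 6) * Real.exp (-(1 / 2)) ^ k := by
          rw [Real.exp_add, Real.exp_nat_mul]
      _ ≤ 7 * (5 / 8) ^ k := by
          apply mul_le_mul h7 (pow_le_pow_left₀ (Real.exp_pos _).le h58 k)
            (by positivity) (by norm_num)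
  refine (ENNReal.tsum_le_tsum hterm).trans ?_
  rw [ENNReal.tsum_mul_left, ENNReal.tsum_geometric]
  have e1 : (1 : ℝ≥0∞) - ENNReal.ofReal (5 / 8) = ENNReal.ofReal (3 / 8) := by
    rw [← ENNReal.ofReal_one, ← ENNReal.ofReal_sub 1 (by norm_num)]
    norm_num
  rw [e1, ← ENNReal.ofReal_inv_of_pos (by norm_num), ← ENNReal.ofReal_mul (by norm_num)]
  apply ENNReal.ofReal_le_ofReal
  norm_num

/-- **(L4)** -/
theorem line_fib_exp {e : E} (he : ‖e‖ = 1) {W0 : Submodule ℝ E} (hW : W0 ≤ (ℝ ∙ e)ᗮ)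
    {τ w g : E → ℝ≥0∞} (hτ : Measurable τ) (hw : Measurable w) (hg : Measurable g)
    (hwe : ∀ (x : E) (t : ℝ), w (x + t • e) = w x)
    (hge : ∀ (x : E) (t : ℝ), g (x + t • e) = g x) {h : ℝ} (hh : 0 < h) {a0 c : ℝ}
    (ha : a0 ≤ 1 / 16) (hc0 : 0 ≤ c) (hc : c ≤ 4 / 15)
    (H : ∀ (k : ℕ) (x : E) (J : ℕ), -((k : ℝ) + 1) < ⟪e, x⟫ → ⟪e, x⟫ + J * h < (k : ℝ) + 1 →
      ∑ j ∈ Finset.range (J + 1), τ (x + ((j : ℝ) * h) • e)
        ≤ ENNReal.ofReal (Real.exp (c * ((k : ℝ) + 1) ^ 2)) * g x) (x0 : E) :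
    fib W0 (fun x => ENNReal.ofReal (Real.exp (a0 * ⟪e, x⟫ ^ 2)) * (w x * τ x)) x0
      ≤ ENNReal.ofReal (20 * h) * fib W0 (fun x => w x * g x) x0 := by
  refine (line_fib he hW hτ hw hwe hh (by linarith)
    (G := fun (k : ℕ) x => ENNReal.ofReal (Real.exp (c * ((k : ℝ) + 1) ^ 2)) * g x)
    (fun k => hg.const_mul _) (fun k x t => by rw [hge]) H x0).trans ?_
  have e1 : ∀ k : ℕ, fib W0 (fun x => w x * (ENNReal.ofReal (Real.exp (c * ((k : ℝ) + 1) ^ 2))
      * g x)) x0 = ENNReal.ofReal (Real.exp (c * ((k : ℝ) + 1) ^ 2))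
        * fib W0 (fun x => w x * g x) x0 := by
    intro k
    have e2 : (fun x => w x * (ENNReal.ofReal (Real.exp (c * ((k : ℝ) + 1) ^ 2)) * g x))
        = fun x => (fun _ : E => ENNReal.ofReal (Real.exp (c * ((k : ℝ) + 1) ^ 2))) x
          * (w x * g x) := by
      funext x; ring
    have hwg : Measurable fun x => w x * g x := hw.mul hg
    rw [e2, fib_mul (inv_const W0 _) hwg]
  simp_rw [e1, ← mul_assoc]
  rw [ENNReal.tsum_mul_right, ← mul_assoc]
  refine mul_le_mul_left ?_ _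
  rw [mul_comm (20 : ℝ), ENNReal.ofReal_mul hh.le]
  exact mul_le_mul_right (num_sum ha hc0 hc) _

end Vale.Agent.P262.H816
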