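import Vale.Agent.P262.H816.Line

/-!
# P262, line lemma (P4), exponents up to `2/5` (`th = 1/4`)
-/

set_option linter.all false

open MeasureTheory ProbabilityTheory Set
open scoped ENNReal RealInnerProductSpace

namespace Vale.Agent.P262.H816

open Vale.Agent.P262.H395
open Vale.Agent.P262.H431

/-- the numerical sum for `c ≤ 2/5` -/
lemma num_sum2 {a0 c : ℝ} (h0 : a0 ≤ 1 / 16) (hc : c ≤ 2 / 5) :
    ∑' k : ℕ, ENNReal.ofReal (Real.exp (-((1 / 2 - a0) * (k : ℝ) ^ 2)))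
      * ENNReal.ofReal (Real.exp (c * ((k : ℝ) + 1) ^ 2)) ≤ ENNReal.ofReal 4000 := by
  have h7 : Real.exp (29 / 5) ≤ 340 := by
    have h1 : Real.exp (29 / 5) ^ 5 ≤ 340 ^ 5 := by
      rw [← Real.exp_nat_mul]
      have e1 : ((5 : ℕ) : ℝ) * (29 / 5) = ((29 : ℕ) : ℝ) * 1 := by norm_num
      rw [e1, Real.exp_nat_mul]
      calc Real.exp 1 ^ 29 ≤ 2.719 ^ 29 :=
            pow_le_pow_left₀ (Real.exp_pos _).le (by linarith [Real.exp_one_lt_d9]) 29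
        _ ≤ 340 ^ 5 := by norm_num
    exact le_of_pow_le_pow_left₀ (by norm_num) (by norm_num) h1
  have h58 : Real.exp (-(1 / 10)) ≤ 10 / 11 := by
    have h2 : (11 / 10 : ℝ) ≤ Real.exp (1 / 10) := by
      have := Real.add_one_le_exp (1 / 10 : ℝ)
      linarith
    rw [Real.exp_neg]
    calc (Real.exp (1 / 10))⁻¹ ≤ (11 / 10 : ℝ)⁻¹ := inv_anti₀ (by norm_num) h2
      _ = 10 / 11 := by norm_num
  have hterm : ∀ k : ℕ, ENNReal.ofReal (Real.exp (-((1 / 2 - a0) * (k : ℝ) ^ 2)))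
      * ENNReal.ofReal (Real.exp (c * ((k : ℝ) + 1) ^ 2))
      ≤ ENNReal.ofReal 340 * ENNReal.ofReal (10 / 11) ^ k := by
    intro k
    rw [← ENNReal.ofReal_mul (Real.exp_pos _).le, ← Real.exp_add,
      ← ENNReal.ofReal_pow (by norm_num), ← ENNReal.ofReal_mul (by norm_num)]
    apply ENNReal.ofReal_le_ofReal
    have hk : (0 : ℝ) ≤ k := Nat.cast_nonneg k
    have h1 : -((1 / 2 - a0) * (k : ℝ) ^ 2) + c * ((k : ℝ) + 1) ^ 2
        ≤ 29 / 5 + (k : ℝ) * (-(1 / 10)) := by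
      have h2 : a0 * (k : ℝ) ^ 2 ≤ 1 / 16 * (k : ℝ) ^ 2 :=
        mul_le_mul_of_nonneg_right h0 (sq_nonneg _)
      have h3 : c * ((k : ℝ) + 1) ^ 2 ≤ 2 / 5 * ((k : ℝ) + 1) ^ 2 :=
        mul_le_mul_of_nonneg_right hc (sq_nonneg _)
      nlinarith [sq_nonneg ((k : ℝ) - 12)]
    calc Real.exp (-((1 / 2 - a0) * (k : ℝ) ^ 2) + c * ((k : ℝ) + 1) ^ 2)
        ≤ Real.exp (29 / 5 + (k : ℝ) * (-(1 / 10))) := Real.exp_le_exp.mpr h1
      _ = Real.exp (29 / 5) * Real.exp (-(1 / 10)) ^ k := by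
          rw [Real.exp_add, Real.exp_nat_mul]
      _ ≤ 340 * (10 / 11) ^ k := by
          apply mul_le_mul h7 (pow_le_pow_left₀ (Real.exp_pos _).le h58 k)
            (by positivity) (by norm_num)
  refine (ENNReal.tsum_le_tsum hterm).trans ?_
  rw [ENNReal.tsum_mul_left, ENNReal.tsum_geometric]
  have e1 : (1 : ℝ≥0∞) - ENNReal.ofReal (10 / 11) = ENNReal.ofReal (1 / 11) := by
    rw [← ENNReal.ofReal_one, ← ENNReal.ofReal_sub 1 (by norm_num)]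
    norm_num
  rw [e1, ← ENNReal.ofReal_inv_of_pos (by norm_num), ← ENNReal.ofReal_mul (by norm_num)]
  apply ENNReal.ofReal_le_ofReal
  norm_num

variable {E : Type*} [NormedAddCommGroup E] [InnerProductSpace ℝ E] [FiniteDimensional ℝ E]
  [MeasurableSpace E] [BorelSpace E]

/-- **(L4')** lattice sums on the chord `|⟨e,x⟩| < k + 1` at most `e^{c (k+1)²} g x`, `c ≤ 2/5`. -/
theorem line_fib_exp2 {e : E} (he : ‖e‖ = 1) {W0 : Submodule ℝ E} (hW : W0 ≤ (ℝ ∙ e)ᗮ)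
    {τ w g : E → ℝ≥0∞} (hτ : Measurable τ) (hw : Measurable w) (hg : Measurable g)
    (hwe : ∀ (x : E) (t : ℝ), w (x + t • e) = w x)
    (hge : ∀ (x : E) (t : ℝ), g (x + t • e) = g x) {h : ℝ} (hh : 0 < h) {a0 c : ℝ}
    (ha : a0 ≤ 1 / 16) (hc : c ≤ 2 / 5)
    (H : ∀ (k : ℕ) (x : E) (J : ℕ), -((k : ℝ) + 1) < ⟪e, x⟫ → ⟪e, x⟫ + J * h < (k : ℝ) + 1 →
      ∑ j ∈ Finset.range (J + 1), τ (x + ((j : ℝ) * h) • e)
        ≤ ENNReal.ofReal (Real.exp (c * ((k : ℝ) + 1) ^ 2)) * g x) (x0 : E) :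
    fib W0 (fun x => ENNReal.ofReal (Real.exp (a0 * ⟪e, x⟫ ^ 2)) * (w x * τ x)) x0
      ≤ ENNReal.ofReal (4000 * h) * fib W0 (fun x => w x * g x) x0 := by
  refine (line_fib he hW hτ hw hwe hh (by linarith)
    (G := fun (k : ℕ) x => ENNReal.ofReal (Real.exp (c * ((k : ℝ) + 1) ^ 2)) * g x)
    (fun k => hg.const_mul _) (fun k x t => by rw [hge]) H x0).trans ?_
  have e1 : ∀ k : ℕ, fib W0 (fun x => w x * (ENNReal.ofReal (Real.exp (c * ((k : ℝ) + 1) ^ 2))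
      * g x)) x0 = ENNReal.ofReal (Real.exp (c * ((k : ℝ) + 1) ^ 2))
        * fib W0 (fun x => w x * g x) x0 := by
    intro k
    have e2 : (fun x => w x * (ENNReal.ofReal (Real.exp (c * ((k : ℝ) + 1) ^ 2)) * g x))
        = fun x => (fun _ : E => ENNReal.ofReal (Real.exp (c * ((k : ℝ) + 1) ^ 2))) x
          * (w x * g x) := by
      funext x; ring
    have hwg : Measurable fun x => w x * g x := hw.mul hg
    rw [e2, fib_mul (inv_const W0 _) hwg]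
  simp_rw [e1, ← mul_assoc]
  rw [ENNReal.tsum_mul_right, ← mul_assoc]
  refine mul_le_mul_left ?_ _
  rw [mul_comm (4000 : ℝ), ENNReal.ofReal_mul hh.le]
  exact mul_le_mul_right (num_sum2 ha hc) _

end Vale.Agent.P262.H816
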